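import Crest.Agent.X262.Pg58.Om
import Crest.Agent.X262.Kah.BunB
import Crest.Agent.X262.Kah.BrgA
import Crest.Agent.R275.Core_144

/-!
# X262 / Pg58 (helper58), file Hol: holomorphic top forms

* `HolF A` : closed forms of type `(n, 0)`;  `holE A : HS (KB A) univ ≃ₗ HolF A`;
* `hol_exact` : an exact form in `HolF A` vanishes;
* `finrank_typ` : the classes of type `(n, 0)` have the dimension of `HS (KB A) univ`.
-/

set_option autoImplicit false
set_option linter.unusedSectionVars false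

open Module Complex Filter Topology Set
open scoped ComplexConjugate ContDiff

noncomputable section

namespace Crest.Agent.X262.Pg58

open Crest.Agent.R208.F Crest.Agent.R208.FI Crest.Agent.R208.CW Crest.Agent.X262.Kah
  Crest.Agent.X262.Kah.Fib
open Crest.Agent.R275.Geo (Cn Atl Part)
open Crest.Agent.R275.Core144 (KB HS IsHS HolAt Jm KB_g)
open Crest.Agent.X262.Man (Emb)

variable {n : ℕ} {M : Type} [TopologicalSpace M] {A : Atl n M} {i j : A.ι} {z : Cn n}

variable (A) in
/-- closed forms of type `(n, 0)` -/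
def HolF : Submodule ℂ (FS A) where
  carrier := {u | (∀ i, ∀ z ∈ (A.e i).target, u.1 i z ∈ Ty n 0) ∧ dF A u = 0}
  add_mem' ha hb := ⟨fun i z hz => add_mem (ha.1 i z hz) (hb.1 i z hz), by
    rw [map_add, ha.2, hb.2, add_zero]⟩
  zero_mem' := ⟨fun _ _ _ => zero_mem _, map_zero _⟩
  smul_mem' c _ ha := ⟨fun i z hz => Submodule.smul_mem _ c (ha.1 i z hz), by
    rw [map_smul, ha.2, smul_zero]⟩


theorem Dtr_lin (hz : z ∈ A.ov i j) (v : Cn n) : Dtr A i j z (I • v) = I • Dtr A i j z v := by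
  rw [Dtr_eq hz]
  exact map_smul ((fderiv ℂ (tr A i j) z : Cn n →L[ℂ] Cn n) : Cn n →ₗ[ℂ] Cn n) I v

theorem pb_Om (hz : z ∈ A.ov i j) :
    pbC (Dtr A i j z) (Om n) = (KB A).g i j ((A.e i).symm z) • Om n := by
  rw [pbC_Om (Dtr_lin hz), KB_g ⟨(A.e i).map_target hz.1, hz.2⟩]
  congr 2
  ext b a
  rw [mat, Matrix.of_apply, Dtr_eq hz, Jm, Matrix.of_apply, Atl.J, (A.e i).right_inv hz.1]
  rfl

theorem hs_diff {s : A.ι → M → ℂ} (hs : IsHS (KB A) univ s) (i : A.ι) :
    DifferentiableOn ℂ (fun z => s i ((A.e i).symm z)) (A.e i).target := by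
  have h := hs.hol i
  rwa [HolAt, preimage_univ, inter_univ] at h

theorem hs_smooth {s : A.ι → M → ℂ} (hs : IsHS (KB A) univ s) (hz : z ∈ (A.e i).target) :
    ContDiffAt ℝ ∞ (fun z => s i ((A.e i).symm z)) z :=
  (((Crest.Agent.R266.SCV.contDiffOn_omega_of_differentiableOn (A.e i).open_target
    (hs_diff hs i)).contDiffAt (tgt_mem hz)).restrict_scalars ℝ).of_le le_top

/-- the form of a section of the canonical bundle -/
def ofHS (s : HS (KB A) univ) : FS A :=
  FS.mk' (fun i z => s.1 i ((A.e i).symm z) • Om n)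
    (fun _ _ hz => CD_fsmul (hs_smooth s.2 hz) (CD.const _)) fun i j z hz => by
      rw [pbC_smul, pb_Om hz, smul_smul, symm_tr hz, mul_comm,
        ← s.2.tr i j _ ⟨(A.e i).map_target hz.1, hz.2⟩ trivial]

theorem ofHS_apply (s : HS (KB A) univ) (hz : z ∈ (A.e i).target) :
    (ofHS s).1 i z = s.1 i ((A.e i).symm z) • Om n := FS.mk'_apply hz

theorem ofHS_mem (s : HS (KB A) univ) : ofHS s ∈ HolF A := by
  refine ⟨fun i z hz => by rw [ofHS_apply s hz]; exact smul_Om_mem _,
    FS.ext' fun i z hz => ?_⟩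
  rw [dF_apply _ hz, ofHS, dC_congr (FS.mk'_ev hz), FS.zero_apply,
    dC_Om_iff ((hs_smooth s.2 hz).differentiableAt (by simp))]
  exact (hs_diff s.2 i).differentiableAt (tgt_mem hz)

theorem co_holo {u : FS A} (hu : u ∈ HolF A) (hz : z ∈ (A.e i).target) :
    DifferentiableAt ℂ (fun y => co n (u.1 i y)) z := by
  rw [← dC_Om_iff ((CD_fun (co n) (u.sm hz)).differentiableAt (by simp))]
  have h : (fun y => co n (u.1 i y) • Om n) =ᶠ[𝓝 z] u.1 i := by
    filter_upwards [tgt_mem hz] with y hy using (eq_co (hu.1 i y hy)).symm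
  rw [dC_congr h, ← dF_apply _ hz, hu.2, FS.zero_apply]

open Classical in
/-- the section of the canonical bundle given by a holomorphic form -/
def toHS (u : HolF A) : HS (KB A) univ :=
  ⟨fun i x => if x ∈ (A.e i).source then co n (u.1.1 i (A.e i x)) else 0,
    { hol := fun i z hz => by
        refine ((co_holo u.2 hz.1).congr_of_eventuallyEq ?_).differentiableWithinAt
        filter_upwards [tgt_mem hz.1] with y hy
        rw [if_pos ((A.e i).map_target hy), (A.e i).right_inv hy]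
      off := fun i x hx => if_neg hx
      tr := fun i j x hx _ => by
        rw [if_pos hx.1, if_pos hx.2, u.1.tr' (mem_ov hx), tr_e hx.1]
        conv_lhs => rw [eq_co (u.2.1 j _ ((A.e j).map_source hx.2))]
        rw [pbC_smul, pb_Om (mem_ov hx), smul_smul, co_smul_Om, (A.e i).left_inv hx.1,
          mul_comm] }⟩

theorem toHS_apply (u : HolF A) {x : M} (hx : x ∈ (A.e i).source) :
    (toHS u).1 i x = co n (u.1.1 i (A.e i x)) := if_pos hx

variable (A) in
/-- **holomorphic top forms are the sections of the canonical bundle** -/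
def holE : HS (KB A) univ ≃ₗ[ℂ] HolF A where
  toFun s := ⟨ofHS s, ofHS_mem s⟩
  map_add' s t := Subtype.ext (FS.ext' fun i z hz => by
    change (ofHS (s + t)).1 i z = (ofHS s).1 i z + (ofHS t).1 i z
    rw [ofHS_apply _ hz, ofHS_apply _ hz, ofHS_apply _ hz, ← add_smul]
    rfl)
  map_smul' c s := Subtype.ext (FS.ext' fun i z hz => by
    change (ofHS (c • s)).1 i z = c • (ofHS s).1 i z
    rw [ofHS_apply _ hz, ofHS_apply _ hz, smul_smul]
    rfl)
  invFun := toHS
  left_inv s := Subtype.ext (funext₂ fun i x => by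
    by_cases hx : x ∈ (A.e i).source
    · rw [toHS_apply _ hx]
      change co n ((ofHS s).1 i (A.e i x)) = _
      rw [ofHS_apply _ ((A.e i).map_source hx), co_smul_Om, (A.e i).left_inv hx]
    · rw [(toHS _).2.off i x hx, s.2.off i x hx])
  right_inv u := Subtype.ext (FS.ext' fun i z hz => by
    change (ofHS (toHS u)).1 i z = _
    rw [ofHS_apply _ hz, toHS_apply _ ((A.e i).map_target hz), (A.e i).right_inv hz,
      ← eq_co (u.2.1 i z hz)])

/-- the top coefficient as a top functional -/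
def tpT' (n : ℕ) : Tp n where
  t := tpC n
  pb L c := by rw [tpC_pbC, normSq_eq_norm_sq]
  cj := tpC_conj

/-- an exact holomorphic top form vanishes -/
theorem hol_exact [T2Space M] [Finite A.ι] (P : Part A) {u v : FS A} (hu : u ∈ HolF A)
    (h : dF A v = u) : u = 0 := by
  have h1 : IntF P (tpT' n) ((kap n)⁻¹ • (u * cjF A u)) = 0 := by
    rw [map_smul]
    nth_rewrite 1 [← h]
    rw [IntF_dF_mul, ← cjF_dF, hu.2, map_zero, mul_zero, map_zero, neg_zero, smul_zero]
  have h2 : ∀ i, ∀ x ∈ (A.e i).source, dnF (tpT' n) ((kap n)⁻¹ • (u * cjF A u)) i x =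
      (normSq (co n (u.1 i (A.e i x))) : ℂ) := fun i x hx => by
    change tpC n ((kap n)⁻¹ • (u.1 i (A.e i x) * Cx.conj (u.1 i (A.e i x)))) = _
    rw [map_smul, tpC_mul_conj (hu.1 i _ ((A.e i).map_source hx)), smul_eq_mul, mul_left_comm,
      inv_mul_cancel₀ kap_ne, mul_one]
  have h3 := Crest.Agent.R273.DnInt_505.IntP_eq_zero P (isDn_dnF (tpT' n) _)
    (fun i x hx => by rw [h2 i x hx, ofReal_re]; exact normSq_nonneg _)
    (by rw [← IntF_apply, h1, zero_re])
  refine FS.ext' fun i z hz => ?_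
  have h4 := h3 i _ ((A.e i).map_target hz)
  rw [h2 i _ ((A.e i).map_target hz), ofReal_re, normSq_eq_zero, (A.e i).right_inv hz] at h4
  rw [eq_co (hu.1 i z hz), h4, zero_smul, FS.zero_apply]

theorem HolF_le [CompactSpace M] (hn : Even n) {u : FS A} (hu : u ∈ HolF A) : u ∈ ZF A :=
  ⟨FS.ext' fun i z hz => by
    rw [invF_apply, Ty.invC_eq (hu.1 i z hz), add_zero, hn.neg_one_pow, one_smul], hu.2⟩

variable {E : Type} [NormedAddCommGroup E] [NormedSpace ℝ E] [FiniteDimensional ℝ E]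
  [CompactSpace M] (ε : Emb A E)

/-- the class of a holomorphic top form -/
def holH (hn : Even n) : HolF A →ₗ[ℂ] H ε.X where
  toFun u := toH ε ⟨u.1, HolF_le hn u.2⟩
  map_add' u v := map_add (toH ε) ⟨u.1, HolF_le hn u.2⟩ ⟨v.1, HolF_le hn v.2⟩
  map_smul' c u := map_smul (toH ε) c ⟨u.1, HolF_le hn u.2⟩

theorem holH_inj [T2Space M] [Finite A.ι] (P : Part A) (hn : Even n) :
    Function.Injective (holH ε hn) := by
  rw [injective_iff_map_eq_zero]
  intro u hu
  obtain ⟨v, hv⟩ := (toH_eq_zero_iff ε).1 hu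
  exact Subtype.ext (hol_exact P u.2 hv)

/-- **classes of type `(n, 0)`** -/
theorem finrank_typ [T2Space M] [Finite A.ι] (P : Part A) (hn : Even n) {T : Submodule ℂ (H ε.X)}
    (hT : ∀ c, c ∈ T ↔
      ∃ u : ZF A, (∀ i, ∀ z ∈ (A.e i).target, u.1.1 i z ∈ Ty n 0) ∧ toH ε u = c) :
    finrank ℂ T = finrank ℂ (HS (KB A) univ) := by
  have h : T = LinearMap.range (holH ε hn) := Submodule.ext fun c => by
    rw [hT]
    exact ⟨fun ⟨u, h1, h2⟩ => ⟨⟨u.1, h1, u.2.2⟩, h2⟩, fun ⟨u, h2⟩ => ⟨_, u.2.1, h2⟩⟩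
  rw [h, LinearMap.finrank_range_of_inj (holH_inj ε P hn), (holE A).finrank_eq]

end Crest.Agent.X262.Pg58
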